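import Mathlib
import Vale.Agent.Lib.P031.Defs
import Vale.Agent.Lib.P031.Totient

namespace Vale.Agent.Results.P031.RatioLimits

open Filter Topology
open Vale.Agent.Lib.P031

/-- On the Erdős–Hall ratio question for `V(x) = totientValueCount x`, the number of distinct
totient values up to `x`.

* For every `c > 1` and `ε > 0`, the ratio `V(cx)/V(x)` is below `c + ε` for arbitrarily large
  `x`, and above `c - ε` for arbitrarily large `x`; so `c` is the only possible limit.
* If `c₁, c₂ > 1` have `log c₁ / log c₂` irrational and the two ratios `V(c₁ x)/V(x)`,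
  `V(c₂ x)/V(x)` converge (to any real limits), then `V(cx)/V(x) → c` for every `c > 0`.
* In particular this holds if `V(2x)/V(x)` and `V(3x)/V(x)` converge. -/
theorem result :
    (∀ c ε : ℝ, 1 < c → 0 < ε →
      (∃ᶠ x : ℝ in atTop, (totientValueCount (c * x) : ℝ) / totientValueCount x < c + ε) ∧
      (∃ᶠ x : ℝ in atTop, c - ε < (totientValueCount (c * x) : ℝ) / totientValueCount x)) ∧
    (∀ c₁ c₂ : ℝ, 1 < c₁ → 1 < c₂ → Irrational (Real.log c₁ / Real.log c₂) →
      (∃ a : ℝ, Tendsto (fun x : ℝ => (totientValueCount (c₁ * x) : ℝ) / totientValueCount x)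
        atTop (𝓝 a)) →
      (∃ b : ℝ, Tendsto (fun x : ℝ => (totientValueCount (c₂ * x) : ℝ) / totientValueCount x)
        atTop (𝓝 b)) →
      ∀ c : ℝ, 0 < c →
        Tendsto (fun x : ℝ => (totientValueCount (c * x) : ℝ) / totientValueCount x)
          atTop (𝓝 c)) ∧
    ((∃ a : ℝ, Tendsto (fun x : ℝ => (totientValueCount (2 * x) : ℝ) / totientValueCount x)
        atTop (𝓝 a)) →
      (∃ b : ℝ, Tendsto (fun x : ℝ => (totientValueCount (3 * x) : ℝ) / totientValueCount x)
        atTop (𝓝 b)) →
      ∀ c : ℝ, 0 < c →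
        Tendsto (fun x : ℝ => (totientValueCount (c * x) : ℝ) / totientValueCount x)
          atTop (𝓝 c)) :=
  totient_ratio

end Vale.Agent.Results.P031.RatioLimits
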