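import Mathlib
import Vale.Agent.Lib.P031.Defs
import Vale.Agent.Lib.P031.LimitPoint

namespace Vale.Agent.Results.P031.SubsequentialLimit

open Filter Topology
open Vale.Agent.Lib.P031

/-- On the Erdős–Hall ratio question for `V(x) = totientValueCount x`, the number of distinct
totient values up to `x`.

* For every `c > 1` and `ε > 0` there are arbitrarily large `x` with `|V(cx)/V(x) - c| < ε`:
  the number `c` is a limit point of the ratio `V(cx)/V(x)` as `x → ∞`.
* If `V(cx)/V(x)` converges to a real number `g` (with `c > 1`), then `g = c`.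
* If `c₁, c₂ > 1` have `log c₁ / log c₂` irrational and the two ratios `V(c₁ x)/V(x)`,
  `V(c₂ x)/V(x)` converge (to any real limits), then `V(cx)/V(x) → c` for every `c > 0`. -/
theorem result :
    (∀ c ε : ℝ, 1 < c → 0 < ε →
      ∃ᶠ x : ℝ in atTop, |(totientValueCount (c * x) : ℝ) / totientValueCount x - c| < ε) ∧
    (∀ c g : ℝ, 1 < c →
      Tendsto (fun x : ℝ => (totientValueCount (c * x) : ℝ) / totientValueCount x)
        atTop (𝓝 g) → g = c) ∧
    (∀ c₁ c₂ : ℝ, 1 < c₁ → 1 < c₂ → Irrational (Real.log c₁ / Real.log c₂) →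
      (∃ a : ℝ, Tendsto (fun x : ℝ => (totientValueCount (c₁ * x) : ℝ) / totientValueCount x)
        atTop (𝓝 a)) →
      (∃ b : ℝ, Tendsto (fun x : ℝ => (totientValueCount (c₂ * x) : ℝ) / totientValueCount x)
        atTop (𝓝 b)) →
      ∀ c : ℝ, 0 < c →
        Tendsto (fun x : ℝ => (totientValueCount (c * x) : ℝ) / totientValueCount x)
          atTop (𝓝 c)) := by
  refine ⟨fun c ε hc hε => frequently_abs_lt hc hε, ?_, totient_ratio.2.1⟩
  intro c g hc h
  have hpos : ∀ x : ℝ, 1 ≤ x → (0 : ℝ) < totientValueCount x :=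
    fun x hx => totientValueCount_pos hx
  have hle : ∀ x : ℝ, 0 ≤ x → (totientValueCount x : ℝ) ≤ x := fun x hx => totientValueCount_le hx
  have hge : ∀ y : ℝ, 258 ≤ y → y / (4 * Real.log y) ≤ totientValueCount y :=
    fun y hy => totientValueCount_ge hy
  exact limit_eq (V := fun x => (totientValueCount x : ℝ)) hpos hle totientValueCount_mono hge hc h

end Vale.Agent.Results.P031.SubsequentialLimit
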